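/-
P134 (De Giorgi): calculus identities for solutions of
Schrodinger-type equations on Euclidean space.
-/
import Mathlib

open MeasureTheory Filter Topology
open scoped InnerProductSpace

noncomputable section

namespace Vale.Agent.P134.Periodic

abbrev Ed (d : ℕ) := EuclideanSpace ℝ (Fin d)

variable {d : ℕ}

/-- The standard basis vector. -/
def bb (i : Fin d) : Ed d := EuclideanSpace.basisFun (Fin d) ℝ i

/-- Partial derivative. -/
def pd (f : Ed d → ℝ) (i : Fin d) (x : Ed d) : ℝ := fderiv ℝ f x (bb i)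

/-- `∇f · ∇g`. -/
def G (f g : Ed d → ℝ) (x : Ed d) : ℝ := ∑ i, pd f i x * pd g i x

lemma G_self_nonneg (f : Ed d → ℝ) (x : Ed d) : 0 ≤ G f f x :=
  Finset.sum_nonneg fun i _ => mul_self_nonneg _

lemma sq_le_G (f : Ed d → ℝ) (i : Fin d) (x : Ed d) : pd f i x ^ 2 ≤ G f f x := by
  rw [pow_two]
  exact Finset.single_le_sum (f := fun k => pd f k x * pd f k x)
    (fun k _ => mul_self_nonneg _) (Finset.mem_univ i)

lemma continuous_pd {f : Ed d → ℝ} {n : WithTop ℕ∞} (hf : ContDiff ℝ n f) (hn : n ≠ 0)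
    (i : Fin d) : Continuous (pd f i) := by
  exact (hf.continuous_fderiv hn).clm_apply continuous_const

lemma continuous_G {f g : Ed d → ℝ} {n m : WithTop ℕ∞} (hf : ContDiff ℝ n f) (hn : n ≠ 0)
    (hg : ContDiff ℝ m g) (hm : m ≠ 0) : Continuous (G f g) := by
  refine continuous_finsetSum _ fun i _ => ?_
  exact (continuous_pd hf hn i).mul (continuous_pd hg hm i)

lemma pd_mul {f g : Ed d → ℝ} {x : Ed d} (hf : DifferentiableAt ℝ f x)
    (hg : DifferentiableAt ℝ g x) (i : Fin d) :
    pd (fun y => f y * g y) i x = f x * pd g i x + g x * pd f i x := by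
  simp [pd, fderiv_fun_mul hf hg]

lemma pd_zero_off {f : Ed d → ℝ} {x : Ed d} (hx : x ∉ tsupport f) (i : Fin d) :
    pd f i x = 0 := by
  simp [pd, fderiv_of_notMem_tsupport ℝ hx]

lemma G_zero_off_left {f : Ed d → ℝ} {x : Ed d} (hx : x ∉ tsupport f) (g : Ed d → ℝ) :
    G f g x = 0 := by
  simp [G, pd_zero_off hx]

lemma integrable_off {f : Ed d → ℝ} (hf : Continuous f) {K : Set (Ed d)} (hK : IsCompact K)
    (h : ∀ x ∉ K, f x = 0) : Integrable f :=
  hf.integrable_of_hasCompactSupport (HasCompactSupport.intro hK h)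

lemma lap_eq {f : Ed d → ℝ} (hf : ContDiff ℝ 2 f) (x : Ed d) :
    Laplacian.laplacian f x = ∑ i, fderiv ℝ (fun y => pd f i y) x (bb i) := by
  rw [InnerProductSpace.laplacian_eq_iteratedFDeriv_orthonormalBasis f
    (EuclideanSpace.basisFun (Fin d) ℝ)]
  refine Finset.sum_congr rfl fun i _ => ?_
  rw [iteratedFDeriv_two_apply]
  have hd : DifferentiableAt ℝ (fderiv ℝ f) x :=
    ((hf.fderiv_right (m := 1) (by norm_num)).differentiable (by norm_num)) x
  show _ = fderiv ℝ (fun y => fderiv ℝ f y (bb i)) x (bb i)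
  rw [fderiv_clm_apply hd (differentiableAt_const _)]
  simp [bb]

lemma contDiff_pd {f : Ed d → ℝ} (hf : ContDiff ℝ 2 f) (i : Fin d) :
    ContDiff ℝ 1 (fun y => pd f i y) := by
  exact (hf.fderiv_right (m := 1) (by norm_num)).clm_apply contDiff_const

/-- Green's identity against a compactly supported test function. -/
lemma ibp {φ w : Ed d → ℝ} (hφ : ContDiff ℝ 1 φ) (hc : HasCompactSupport φ)
    (hw : ContDiff ℝ 2 w) :
    ∫ x, φ x * Laplacian.laplacian w x = -∫ x, G φ w x := by
  have key : ∀ i : Fin d, ∫ x, φ x * fderiv ℝ (fun y => pd w i y) x (bb i)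
      = -∫ x, pd φ i x * pd w i x := by
    intro i
    refine integral_mul_fderiv_eq_neg_fderiv_mul_of_integrable ?_ ?_ ?_ ?_ ?_
    · exact integrable_off ((continuous_pd hφ (by norm_num) i).mul
        (continuous_pd hw (by norm_num) i)) hc fun x hx => by
          show pd φ i x * pd w i x = 0
          rw [pd_zero_off hx]; ring
    · exact integrable_off (hφ.continuous.mul
        (continuous_pd (contDiff_pd hw i) (by norm_num) i)) hc fun x hx => by
          show φ x * _ = 0
          rw [image_eq_zero_of_notMem_tsupport hx]; ring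
    · exact integrable_off (hφ.continuous.mul (continuous_pd hw (by norm_num) i)) hc
        fun x hx => by
          show φ x * _ = 0
          rw [image_eq_zero_of_notMem_tsupport hx]; ring
    · exact fun x _ => hφ.differentiable (by norm_num) x
    · exact fun x _ => (contDiff_pd hw i).differentiable (by norm_num) x
  have e1 : (fun x => φ x * Laplacian.laplacian w x)
      = fun x => ∑ i, φ x * fderiv ℝ (fun y => pd w i y) x (bb i) := by
    funext x; rw [lap_eq hw, Finset.mul_sum]
  rw [e1, integral_finsetSum]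
  · rw [Finset.sum_congr rfl fun i _ => key i, Finset.sum_neg_distrib]
    congr 1
    rw [← integral_finsetSum]
    · rfl
    · intro i _
      exact integrable_off ((continuous_pd hφ (by norm_num) i).mul
        (continuous_pd hw (by norm_num) i)) hc fun x hx => by
          show pd φ i x * pd w i x = 0
          rw [pd_zero_off hx]; ring
  · intro i _
    exact integrable_off (hφ.continuous.mul
      (continuous_pd (contDiff_pd hw i) (by norm_num) i)) hc fun x hx => by
        show φ x * _ = 0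
        rw [image_eq_zero_of_notMem_tsupport hx]; ring

/-- Caccioppoli inequality for bounded solutions of `Δu = u³ - u`. -/
lemma caccioppoli {u η : Ed d → ℝ} (hu : ContDiff ℝ 2 u) (hb : ∀ x, |u x| ≤ 1)
    (heq : ∀ x, Laplacian.laplacian u x = u x ^ 3 - u x)
    (hη : ContDiff ℝ 1 η) (hc : HasCompactSupport η) :
    ∫ x, η x ^ 2 * G u u x ≤ ∫ x, (4 * G η η x + η x ^ 2) := by
  have hu1 : ContDiff ℝ 1 u := hu.of_le (by norm_num)
  set φ : Ed d → ℝ := fun x => η x * (η x * u x) with hφdef
  have hφ : ContDiff ℝ 1 φ := hη.mul (hη.mul hu1)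
  have hφc : HasCompactSupport φ := hc.mul_right
  have h0 := ibp hφ hφc hu
  have hGφ : Integrable (G φ u) :=
    integrable_off (continuous_G hφ (by norm_num) hu (by norm_num)) hφc
      fun x hx => G_zero_off_left hx u
  have hφΔ : Integrable (fun x => φ x * (u x ^ 3 - u x)) :=
    integrable_off (hφ.continuous.mul ((hu.continuous.pow 3).sub hu.continuous)) hφc
      fun x hx => by
        show φ x * _ = 0
        rw [image_eq_zero_of_notMem_tsupport hx]; ring
  have hsum : ∫ x, (φ x * (u x ^ 3 - u x) + G φ u x) = 0 := by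
    rw [integral_add hφΔ hGφ]
    simp only [heq] at h0
    rw [h0]; ring
  have hA : Integrable (fun x => η x ^ 2 * G u u x) :=
    integrable_off ((hη.continuous.pow 2).mul (continuous_G hu (by norm_num) hu (by norm_num)))
      hc fun x hx => by
        show η x ^ 2 * _ = 0
        rw [image_eq_zero_of_notMem_tsupport hx]; ring
  have hB : Integrable (fun x => 4 * G η η x + η x ^ 2) :=
    integrable_off (((continuous_G hη (by norm_num) hη (by norm_num)).const_mul 4).add
      (hη.continuous.pow 2)) hc fun x hx => by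
        show 4 * G η η x + η x ^ 2 = 0
        rw [image_eq_zero_of_notMem_tsupport hx, G_zero_off_left hx]; ring
  have pw : ∀ x, η x ^ 2 * G u u x - (4 * G η η x + η x ^ 2)
      ≤ 2 * (φ x * (u x ^ 3 - u x) + G φ u x) := by
    intro x
    have hdη := hη.differentiable (by norm_num) x
    have hdu := hu1.differentiable (by norm_num) x
    have hG : G φ u x = ∑ i, (η x ^ 2 * (pd u i x * pd u i x)
        + 2 * η x * u x * (pd η i x * pd u i x)) := by
      refine Finset.sum_congr rfl fun i _ => ?_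
      rw [hφdef, pd_mul hdη (hdη.fun_mul hdu), pd_mul hdη hdu]
      ring
    have hu2 : u x ^ 2 ≤ 1 := by
      have := hb x
      nlinarith [abs_nonneg (u x), sq_abs (u x)]
    have h1 : φ x * (u x ^ 3 - u x) ≥ -(η x ^ 2) / 2 := by
      have h3 : u x * (u x ^ 3 - u x) ≥ -(1 / 2 : ℝ) := by
        nlinarith [sq_nonneg (u x ^ 2 - 1 / 2)]
      have := mul_le_mul_of_nonneg_left h3 (sq_nonneg (η x))
      calc -(η x ^ 2) / 2 = η x ^ 2 * -(1 / 2 : ℝ) := by ring
        _ ≤ η x ^ 2 * (u x * (u x ^ 3 - u x)) := this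
        _ = φ x * (u x ^ 3 - u x) := by rw [hφdef]; ring
    have h2 : ∀ i, η x ^ 2 * (pd u i x * pd u i x) - 4 * (pd η i x * pd η i x)
        ≤ 2 * (η x ^ 2 * (pd u i x * pd u i x)
          + 2 * η x * u x * (pd η i x * pd u i x)) := by
      intro i
      nlinarith [sq_nonneg (η x * pd u i x + 2 * u x * pd η i x),
        mul_le_mul_of_nonneg_left hu2 (mul_self_nonneg (pd η i x))]
    have h3 := Finset.sum_le_sum (s := Finset.univ) fun i _ => h2 i
    rw [Finset.sum_sub_distrib, ← Finset.mul_sum, ← Finset.mul_sum, ← Finset.mul_sum,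
      ← hG] at h3
    change η x ^ 2 * G u u x - 4 * G η η x ≤ _ at h3
    linarith
  have hI : ∫ x, (η x ^ 2 * G u u x - (4 * G η η x + η x ^ 2))
      ≤ ∫ x, 2 * (φ x * (u x ^ 3 - u x) + G φ u x) :=
    integral_mono (hA.sub hB) ((hφΔ.add hGφ).const_mul 2) pw
  rw [integral_sub hA hB, integral_const_mul] at hI
  rw [hsum] at hI
  linarith

/-- Picone-type inequality for two Schrodinger equations. -/
lemma picone {v w c0 c1 η : Ed d → ℝ} (hv : ContDiff ℝ 2 v) (hvpos : ∀ x, 0 < v x)
    (hw : ContDiff ℝ 2 w) (hc0 : Continuous c0) (hc1 : Continuous c1)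
    (hev : ∀ x, Laplacian.laplacian v x = c0 x * v x)
    (hew : ∀ x, Laplacian.laplacian w x = c1 x * w x)
    (hη : ContDiff ℝ 1 η) (hc : HasCompactSupport η) :
    ∫ x, η x ^ 2 * (v x ^ 2 * G (fun y => w y / v y) (fun y => w y / v y) x)
      ≤ ∫ x, (4 * (w x ^ 2 * G η η x) + 2 * ((c0 x - c1 x) * η x ^ 2 * w x ^ 2)) := by
  set σ : Ed d → ℝ := fun y => w y / v y with hσdef
  have hσ : ContDiff ℝ 2 σ := hw.div hv fun x => (hvpos x).ne'
  have hσ1 : ContDiff ℝ 1 σ := hσ.of_le (by norm_num)
  have hw1 : ContDiff ℝ 1 w := hw.of_le (by norm_num)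
  have hwσ : w = fun y => σ y * v y := by
    funext y; simp [hσdef, div_mul_cancel₀ _ (hvpos y).ne']
  set φ0 : Ed d → ℝ := fun x => η x * (η x * (σ x * w x)) with hφ0def
  set φ1 : Ed d → ℝ := fun x => η x * (η x * w x) with hφ1def
  have hφ0 : ContDiff ℝ 1 φ0 := hη.mul (hη.mul (hσ1.mul hw1))
  have hφ1 : ContDiff ℝ 1 φ1 := hη.mul (hη.mul hw1)
  have hφ0c : HasCompactSupport φ0 := hc.mul_right
  have hφ1c : HasCompactSupport φ1 := hc.mul_right
  have h0 := ibp hφ0 hφ0c hv
  have h1 := ibp hφ1 hφ1c hw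
  simp only [hev] at h0
  simp only [hew] at h1
  have iG0 : Integrable (G φ0 v) :=
    integrable_off (continuous_G hφ0 (by norm_num) hv (by norm_num)) hφ0c
      fun x hx => G_zero_off_left hx v
  have iG1 : Integrable (G φ1 w) :=
    integrable_off (continuous_G hφ1 (by norm_num) hw (by norm_num)) hφ1c
      fun x hx => G_zero_off_left hx w
  have i0 : Integrable (fun x => φ0 x * (c0 x * v x)) :=
    integrable_off (hφ0.continuous.mul (hc0.mul hv.continuous)) hφ0c fun x hx => by
      show φ0 x * _ = 0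
      rw [image_eq_zero_of_notMem_tsupport hx]; ring
  have i1 : Integrable (fun x => φ1 x * (c1 x * w x)) :=
    integrable_off (hφ1.continuous.mul (hc1.mul hw.continuous)) hφ1c fun x hx => by
      show φ1 x * _ = 0
      rw [image_eq_zero_of_notMem_tsupport hx]; ring
  have hsum : ∫ x, ((φ1 x * (c1 x * w x) + G φ1 w x) - (φ0 x * (c0 x * v x) + G φ0 v x)) = 0 := by
    have j1 : Integrable (fun x => φ1 x * (c1 x * w x) + G φ1 w x) := i1.add iG1
    have j0 : Integrable (fun x => φ0 x * (c0 x * v x) + G φ0 v x) := i0.add iG0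
    rw [integral_sub j1 j0, integral_add i1 iG1, integral_add i0 iG0,
      h0, h1]
    ring
  have hA : Integrable (fun x => η x ^ 2 * (v x ^ 2 * G σ σ x)) :=
    integrable_off ((hη.continuous.pow 2).mul ((hv.continuous.pow 2).mul
      (continuous_G hσ (by norm_num) hσ (by norm_num)))) hc fun x hx => by
        show η x ^ 2 * _ = 0
        rw [image_eq_zero_of_notMem_tsupport hx]; ring
  have hB : Integrable
      (fun x => 4 * (w x ^ 2 * G η η x) + 2 * ((c0 x - c1 x) * η x ^ 2 * w x ^ 2)) :=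
    integrable_off ((((hw.continuous.pow 2).mul
      (continuous_G hη (by norm_num) hη (by norm_num))).const_mul 4).add
      ((((hc0.sub hc1).mul (hη.continuous.pow 2)).mul (hw.continuous.pow 2)).const_mul 2))
      hc fun x hx => by
        show 4 * (w x ^ 2 * G η η x) + 2 * ((c0 x - c1 x) * η x ^ 2 * w x ^ 2) = 0
        rw [image_eq_zero_of_notMem_tsupport hx, G_zero_off_left hx]; ring
  have pw : ∀ x, η x ^ 2 * (v x ^ 2 * G σ σ x)
      - (4 * (w x ^ 2 * G η η x) + 2 * ((c0 x - c1 x) * η x ^ 2 * w x ^ 2))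
      ≤ 2 * ((φ1 x * (c1 x * w x) + G φ1 w x) - (φ0 x * (c0 x * v x) + G φ0 v x)) := by
    intro x
    have hdη := hη.differentiable (by norm_num) x
    have hdσ := hσ1.differentiable (by norm_num) x
    have hdv := hv.differentiable (by norm_num) x
    have hdw := hw1.differentiable (by norm_num) x
    have hG : G φ1 w x - G φ0 v x = ∑ i, (η x ^ 2 * v x ^ 2 * (pd σ i x * pd σ i x)
        + 2 * η x * σ x * v x ^ 2 * (pd η i x * pd σ i x)) := by
      unfold G
      rw [← Finset.sum_sub_distrib]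
      refine Finset.sum_congr rfl fun i _ => ?_
      rw [hφ0def, hφ1def, pd_mul hdη (hdη.fun_mul (hdσ.fun_mul hdw)),
        pd_mul hdη (hdσ.fun_mul hdw), pd_mul hdη (hdη.fun_mul hdw), pd_mul hdη hdw,
        pd_mul hdσ hdw]
      simp only [hwσ]
      rw [pd_mul hdσ hdv]
      ring
    have h2 : ∀ i, η x ^ 2 * v x ^ 2 * (pd σ i x * pd σ i x) - 4 * (w x ^ 2 * (pd η i x * pd η i x))
        ≤ 2 * (η x ^ 2 * v x ^ 2 * (pd σ i x * pd σ i x)
          + 2 * η x * σ x * v x ^ 2 * (pd η i x * pd σ i x)) := by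
      intro i
      rw [congrFun hwσ x]
      nlinarith [sq_nonneg (η x * v x * pd σ i x + 2 * σ x * v x * pd η i x)]
    have h3 := Finset.sum_le_sum (s := Finset.univ) fun i _ => h2 i
    rw [Finset.sum_sub_distrib, ← Finset.mul_sum, ← Finset.mul_sum, ← Finset.mul_sum,
      ← Finset.mul_sum, ← hG] at h3
    change η x ^ 2 * v x ^ 2 * G σ σ x - 4 * (w x ^ 2 * G η η x) ≤ _ at h3
    have e1 : φ1 x * (c1 x * w x) - φ0 x * (c0 x * v x)
        = (c1 x - c0 x) * η x ^ 2 * w x ^ 2 := by
      simp only [hφ0def, hφ1def, congrFun hwσ x]; ring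
    linarith
  have hI : ∫ x, (η x ^ 2 * (v x ^ 2 * G σ σ x)
      - (4 * (w x ^ 2 * G η η x) + 2 * ((c0 x - c1 x) * η x ^ 2 * w x ^ 2)))
      ≤ ∫ x, 2 * ((φ1 x * (c1 x * w x) + G φ1 w x) - (φ0 x * (c0 x * v x) + G φ0 v x)) :=
    integral_mono (hA.sub hB) (((i1.add iG1).sub (i0.add iG0)).const_mul 2) pw
  rw [integral_sub hA hB, integral_const_mul] at hI
  rw [hsum] at hI
  linarith

end Vale.Agent.P134.Periodic
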