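/-
P134 (De Giorgi): anisotropic logarithmic cutoff and energy bounds.
-/
import Vale.Agent.P134.Calc

open MeasureTheory Filter Topology

noncomputable section

namespace Vale.Agent.P134.Periodic

variable {d m r : ℕ}

/-- Indices: `m` periodic and `r` free directions. -/
abbrev Ix (m r : ℕ) := Fin m ⊕ Fin r

/-- A fixed bump: `1` on `[-1,1]`, `0` outside `(-2,2)`. -/
def bump : ContDiffBump (0 : ℝ) := ⟨1, 2, one_pos, one_lt_two⟩

lemma bump_one {t : ℝ} (h : |t| ≤ 1) : bump t = 1 :=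
  bump.one_of_mem_closedBall (by simpa [bump, Real.dist_eq] using h)

lemma bump_zero {t : ℝ} (h : 2 ≤ |t|) : bump t = 0 :=
  bump.zero_of_le_dist (by simpa [bump, Real.dist_eq] using h)

lemma deriv_bump_zero {t : ℝ} (h : |t| ≤ 1 ∨ 2 ≤ |t|) : deriv bump t = 0 := by
  rcases h with h | h
  · have hmax : IsLocalMax bump t :=
      Filter.Eventually.of_forall fun y => by rw [bump_one h]; exact bump.le_one
    exact hmax.deriv_eq_zero
  · have hmin : IsLocalMin bump t :=
      Filter.Eventually.of_forall fun y => by rw [bump_zero h]; exact bump.nonneg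
    exact hmin.deriv_eq_zero

lemma exists_deriv_bump_bound : ∃ M, 0 ≤ M ∧ ∀ t : ℝ, |deriv bump t| ≤ M := by
  have hb : ContDiff ℝ 1 bump := bump.contDiff
  have hc := hb.continuous_deriv (by norm_num)
  have hs : HasCompactSupport (deriv bump) := bump.hasCompactSupport.deriv
  obtain ⟨C, hC⟩ := hs.exists_bound_of_continuous hc
  exact ⟨max C 0, le_max_right _ _, fun t => le_trans (by simpa [Real.norm_eq_abs] using hC t)
    (le_max_left _ _)⟩

variable (L : Ed d ≃L[ℝ] (Ix m r → ℝ))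

/-- Closed coordinate box. -/
def box (w : Ix m r → ℝ) : Set (Ed d) := {x | ∀ j, |L x j| ≤ w j}

lemma box_eq (w : Ix m r → ℝ) :
    box L w = L ⁻¹' (Set.univ.pi fun j => Set.Icc (-w j) (w j)) := by
  ext x
  simp only [box, Set.mem_setOf_eq, Set.mem_preimage, Set.mem_univ_pi, Set.mem_Icc, abs_le]

lemma isCompact_box (w : Ix m r → ℝ) : IsCompact (box L w) := by
  rw [box_eq, ← L.toHomeomorph.isCompact_image]
  have : (L.toHomeomorph '' (L ⁻¹' (Set.univ.pi fun j => Set.Icc (-w j) (w j))))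
      = Set.univ.pi fun j => Set.Icc (-w j) (w j) :=
    Set.image_preimage_eq _ L.surjective
  rw [this]
  exact isCompact_univ_pi fun j => isCompact_Icc

lemma measurableSet_box (w : Ix m r → ℝ) : MeasurableSet (box L w) :=
  (isCompact_box L w).isClosed.measurableSet

lemma exists_volume_box : ∃ c, 0 ≤ c ∧ ∀ w : Ix m r → ℝ, (∀ j, 0 ≤ w j) →
    volume.real (box L w) = c * ∏ j, (2 * w j) := by
  have hH : (Measure.map L (volume : Measure (Ed d))).IsAddHaarMeasure :=
    L.isAddHaarMeasure_map _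
  have heq := Measure.isAddLeftInvariant_eq_smul (Measure.map L (volume : Measure (Ed d)))
    (volume : Measure (Ix m r → ℝ))
  set a := Measure.addHaarScalarFactor (Measure.map L (volume : Measure (Ed d)))
    (volume : Measure (Ix m r → ℝ)) with ha
  refine ⟨a, a.2, fun w hw => ?_⟩
  have hms : MeasurableSet (Set.univ.pi fun j => Set.Icc (-w j) (w j)) :=
    MeasurableSet.univ_pi fun j => measurableSet_Icc
  rw [box_eq, Measure.real, ← Measure.map_apply L.continuous.measurable hms, heq,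
    Measure.smul_apply, ENNReal.toReal_smul, volume_pi_pi, ENNReal.toReal_prod]
  rw [NNReal.smul_def, smul_eq_mul]
  congr 1
  refine Finset.prod_congr rfl fun j _ => ?_
  rw [Real.volume_Icc, ENNReal.toReal_ofReal (by linarith [hw j])]
  ring

/-- One coordinate bump. -/
def pf (w : Ix m r → ℝ) (j : Ix m r) (x : Ed d) : ℝ := bump (L x j / w j)

/-- Product bump. -/
def Pb (s : Finset (Ix m r)) (w : Ix m r → ℝ) (x : Ed d) : ℝ := ∏ j ∈ s, pf L w j x

lemma contDiff_pf (w : Ix m r → ℝ) (j : Ix m r) : ContDiff ℝ 1 (pf L w j) := by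
  have hb : ContDiff ℝ 1 bump := bump.contDiff
  exact hb.comp (((ContinuousLinearMap.proj (R := ℝ) j).comp
    (L : Ed d →L[ℝ] (Ix m r → ℝ))).contDiff.div_const (w j))

lemma pd_pf (w : Ix m r → ℝ) (j : Ix m r) (i : Fin d) (x : Ed d) :
    pd (pf L w j) i x = deriv bump (L x j / w j) * (L (bb i) j / w j) := by
  have hl : HasFDerivAt (fun y => L y j / w j)
      ((w j)⁻¹ • ((ContinuousLinearMap.proj (R := ℝ) j).comp (L : Ed d →L[ℝ] (Ix m r → ℝ)))) x := by
    have := (((ContinuousLinearMap.proj (R := ℝ) j).comp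
      (L : Ed d →L[ℝ] (Ix m r → ℝ))).hasFDerivAt (x := x)).const_mul (w j)⁻¹
    simpa [div_eq_inv_mul] using this
  have hb : ContDiff ℝ 1 bump := bump.contDiff
  have h := ((hb.differentiable (by norm_num) (L x j / w j)).hasDerivAt).comp_hasFDerivAt x hl
  rw [pd, show pf L w j = (fun t => bump t) ∘ (fun y => L y j / w j) from rfl]
  rw [h.fderiv]
  simp [div_eq_inv_mul]

lemma contDiff_Pb (s : Finset (Ix m r)) (w : Ix m r → ℝ) : ContDiff ℝ 1 (Pb L s w) :=
  contDiff_prod fun j _ => contDiff_pf L w j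

lemma Pb_nonneg (s : Finset (Ix m r)) (w : Ix m r → ℝ) (x : Ed d) : 0 ≤ Pb L s w x :=
  Finset.prod_nonneg fun _ _ => bump.nonneg

lemma Pb_le_one (s : Finset (Ix m r)) (w : Ix m r → ℝ) (x : Ed d) : Pb L s w x ≤ 1 :=
  Finset.prod_le_one (fun _ _ => bump.nonneg) (fun _ _ => bump.le_one)

lemma abs_Pb_le_one (s : Finset (Ix m r)) (w : Ix m r → ℝ) (x : Ed d) : |Pb L s w x| ≤ 1 :=
  abs_le.2 ⟨by linarith [Pb_nonneg L s w x], Pb_le_one L s w x⟩

lemma Pb_one {s : Finset (Ix m r)} {w : Ix m r → ℝ} {x : Ed d} (hw : ∀ j ∈ s, 0 < w j)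
    (h : ∀ j ∈ s, |L x j| ≤ w j) : Pb L s w x = 1 :=
  Finset.prod_eq_one fun j hj => bump_one (by
    rw [abs_div, abs_of_pos (hw j hj), div_le_one (hw j hj)]; exact h j hj)

lemma Pb_zero {s : Finset (Ix m r)} {w : Ix m r → ℝ} {x : Ed d} (hw : ∀ j ∈ s, 0 < w j)
    {j : Ix m r} (hj : j ∈ s) (h : 2 * w j ≤ |L x j|) : Pb L s w x = 0 :=
  Finset.prod_eq_zero hj (bump_zero (by
    rw [abs_div, abs_of_pos (hw j hj), le_div_iff₀ (hw j hj)]; linarith))

lemma pd_Pb (s : Finset (Ix m r)) (w : Ix m r → ℝ) (i : Fin d) (x : Ed d) :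
    pd (Pb L s w) i x = ∑ j ∈ s, (∏ k ∈ s.erase j, pf L w k x) * pd (pf L w j) i x := by
  have h := HasFDerivAt.finsetProd (u := s) (g := fun j => pf L w j)
    (g' := fun j => fderiv ℝ (pf L w j) x) (x := x)
    fun j _ => ((contDiff_pf L w j).differentiable (by norm_num) x).hasFDerivAt
  unfold pd
  rw [show Pb L s w = fun y => ∏ j ∈ s, pf L w j y from rfl, h.fderiv]
  simp

lemma abs_pd_Pb {M Λ : ℝ} (hM : ∀ t, |deriv bump t| ≤ M) (hΛ : ∀ i j, |L (bb i) j| ≤ Λ)
    {s : Finset (Ix m r)} {w : Ix m r → ℝ} (hw : ∀ j ∈ s, 0 < w j) (i : Fin d) (x : Ed d) :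
    |pd (Pb L s w) i x| ≤ ∑ j ∈ s, M * Λ / w j := by
  rw [pd_Pb]
  refine le_trans (Finset.abs_sum_le_sum_abs _ _) (Finset.sum_le_sum fun j hj => ?_)
  have h1 : |∏ k ∈ s.erase j, pf L w k x| ≤ 1 := abs_Pb_le_one L (s.erase j) w x
  have h2 : |pd (pf L w j) i x| ≤ M * Λ / w j := by
    rw [pd_pf, abs_mul, abs_div, abs_of_pos (hw j hj), mul_div_assoc]
    exact mul_le_mul (hM _) (div_le_div_of_nonneg_right (hΛ i j) (hw j hj).le)
      (div_nonneg (abs_nonneg _) (hw j hj).le) (le_trans (abs_nonneg _) (hM 0))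
  rw [abs_mul]
  calc _ ≤ 1 * (M * Λ / w j) :=
        mul_le_mul h1 h2 (abs_nonneg _) zero_le_one
    _ = _ := one_mul _

lemma pd_Pb_ne {s : Finset (Ix m r)} {w : Ix m r → ℝ} (hw : ∀ j ∈ s, 0 < w j) {i : Fin d} {x : Ed d}
    (h : pd (Pb L s w) i x ≠ 0) :
    (∀ j ∈ s, |L x j| < 2 * w j) ∧ ∃ j ∈ s, w j < |L x j| := by
  rw [pd_Pb] at h
  obtain ⟨j, hj, hne⟩ := Finset.exists_ne_zero_of_sum_ne_zero h
  have hP : Pb L (s.erase j) w x ≠ 0 := left_ne_zero_of_mul hne
  have hd : deriv bump (L x j / w j) ≠ 0 := by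
    have := right_ne_zero_of_mul hne
    rw [pd_pf] at this
    exact left_ne_zero_of_mul this
  have hwj := hw j hj
  have h1 : w j < |L x j| := by
    by_contra hc
    exact hd (deriv_bump_zero (Or.inl (by
      rw [abs_div, abs_of_pos hwj, div_le_one hwj]; linarith)))
  have h2 : |L x j| < 2 * w j := by
    by_contra hc
    exact hd (deriv_bump_zero (Or.inr (by
      rw [abs_div, abs_of_pos hwj, le_div_iff₀ hwj]; linarith)))
  refine ⟨fun k hk => ?_, j, hj, h1⟩
  rcases eq_or_ne k j with rfl | hkj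
  · exact h2
  · by_contra hc
    exact hP (Pb_zero L (fun l hl => hw l (Finset.mem_of_mem_erase hl))
      (Finset.mem_erase.2 ⟨hkj, hk⟩) (by linarith))

lemma exists_Lambda : ∃ Λ, 0 ≤ Λ ∧ ∀ (i : Fin d) (j : Ix m r), |L (bb i) j| ≤ Λ := by
  refine ⟨∑ i, ∑ j, |L (bb i) j|, by positivity, fun i j => ?_⟩
  calc |L (bb i) j| ≤ ∑ j', |L (bb i) j'| :=
        Finset.single_le_sum (f := fun j' => |L (bb i) j'|) (fun _ _ => abs_nonneg _)
          (Finset.mem_univ j)
    _ ≤ _ := Finset.single_le_sum (f := fun i' => ∑ j', |L (bb i') j'|)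
        (fun _ _ => Finset.sum_nonneg fun _ _ => abs_nonneg _) (Finset.mem_univ i)

lemma tsupport_subset_box {f : Ed d → ℝ} {w : Ix m r → ℝ} (h : ∀ x ∉ box L w, f x = 0) :
    tsupport f ⊆ box L w := by
  refine closure_minimal (fun x hx => ?_) (isCompact_box L w).isClosed
  by_contra hc
  exact hx (h x hc)

/-- Energy bound on boxes: linear in the volume. -/
lemma energy_bound {u : Ed d → ℝ} (hu : ContDiff ℝ 2 u) (hb : ∀ x, |u x| ≤ 1)
    (heq : ∀ x, Laplacian.laplacian u x = u x ^ 3 - u x) :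
    ∃ C, 0 ≤ C ∧ ∀ w : Ix m r → ℝ, (∀ j, 1 ≤ w j) →
      ∫ x, (box L w).indicator (G u u) x ≤ C * ∏ j, w j := by
  obtain ⟨M, hM0, hM⟩ := exists_deriv_bump_bound
  obtain ⟨Λ, hΛ0, hΛ⟩ := exists_Lambda L
  obtain ⟨c, hc0, hc⟩ := exists_volume_box L
  set A : ℝ := 4 * ((d : ℝ) * ((Fintype.card (Ix m r) : ℝ) * (M * Λ)) ^ 2) + 1 with hA
  refine ⟨A * c * (∏ _j : Ix m r, (4 : ℝ)), by positivity, fun w hw => ?_⟩
  have hwpos : ∀ j ∈ (Finset.univ : Finset (Ix m r)), 0 < w j := fun j _ => by linarith [hw j]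
  set η := Pb L Finset.univ w with hη
  set w2 : Ix m r → ℝ := fun j => 2 * w j with hw2
  have hz : ∀ x ∉ box L w2, η x = 0 := by
    intro x hx
    simp only [box, Set.mem_setOf_eq, not_forall, not_le] at hx
    obtain ⟨j, hj⟩ := hx
    exact Pb_zero L hwpos (Finset.mem_univ j) hj.le
  have hsub := tsupport_subset_box L hz
  have hcs : HasCompactSupport η := HasCompactSupport.intro (isCompact_box L w2) hz
  have hη1 := contDiff_Pb L Finset.univ w
  have hI := caccioppoli hu hb heq hη1 hcs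
  have hiG : Integrable ((box L w).indicator (G u u)) :=
    ((continuous_G hu (by norm_num) hu (by norm_num)).continuousOn.integrableOn_compact
      (isCompact_box L w)).integrable_indicator (measurableSet_box L w)
  have hiA : Integrable (fun x => η x ^ 2 * G u u x) :=
    integrable_off ((hη1.continuous.pow 2).mul (continuous_G hu (by norm_num) hu (by norm_num)))
      (isCompact_box L w2) fun x hx => by
        show η x ^ 2 * _ = 0
        rw [hz x hx]; ring
  have hiB : Integrable (fun x => 4 * G η η x + η x ^ 2) :=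
    integrable_off (((continuous_G hη1 (by norm_num) hη1 (by norm_num)).const_mul 4).add
      (hη1.continuous.pow 2)) (isCompact_box L w2) fun x hx => by
        show 4 * G η η x + η x ^ 2 = 0
        rw [hz x hx, G_zero_off_left (fun h => hx (hsub h))]; ring
  have hiC : Integrable ((box L w2).indicator fun _ => A) :=
    ((continuous_const : Continuous fun _ : Ed d => A).continuousOn.integrableOn_compact
      (isCompact_box L w2)).integrable_indicator (measurableSet_box L w2)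
  have s1 : ∫ x, (box L w).indicator (G u u) x ≤ ∫ x, η x ^ 2 * G u u x := by
    refine integral_mono hiG hiA fun x => ?_
    by_cases hx : x ∈ box L w
    · rw [Set.indicator_of_mem hx, hη, Pb_one L hwpos fun j _ => hx j]; simp
    · rw [Set.indicator_of_notMem hx]
      exact mul_nonneg (sq_nonneg _) (G_self_nonneg u x)
  have s2 : ∫ x, (4 * G η η x + η x ^ 2) ≤ ∫ x, (box L w2).indicator (fun _ => A) x := by
    refine integral_mono hiB hiC fun x => ?_
    by_cases hx : x ∈ box L w2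
    · rw [Set.indicator_of_mem hx]
      have h1 : η x ^ 2 ≤ 1 := by
        have := abs_Pb_le_one L Finset.univ w x
        rw [← hη] at this
        nlinarith [sq_abs (η x), abs_nonneg (η x)]
      have hp : ∀ i, |pd η i x| ≤ (Fintype.card (Ix m r) : ℝ) * (M * Λ) := by
        intro i
        refine le_trans (abs_pd_Pb L hM hΛ hwpos i x) ?_
        calc ∑ j, M * Λ / w j ≤ ∑ _j : Ix m r, M * Λ :=
              Finset.sum_le_sum fun j _ => div_le_self (mul_nonneg hM0 hΛ0) (hw j)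
          _ = _ := by simp
      have h2 : G η η x ≤ (d : ℝ) * ((Fintype.card (Ix m r) : ℝ) * (M * Λ)) ^ 2 := by
        calc G η η x ≤ ∑ _i : Fin d, ((Fintype.card (Ix m r) : ℝ) * (M * Λ)) ^ 2 := by
              refine Finset.sum_le_sum fun i _ => ?_
              rw [← sq, ← sq_abs (pd η i x)]
              exact pow_le_pow_left₀ (abs_nonneg _) (hp i) 2
          _ = _ := by simp
      linarith
    · rw [Set.indicator_of_notMem hx, hz x hx, G_zero_off_left (fun h => hx (hsub h))]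
      norm_num
  have s3 : ∫ x, (box L w2).indicator (fun _ => A) x
      = A * c * (∏ _j : Ix m r, (4 : ℝ)) * ∏ j, w j := by
    rw [integral_indicator_const _ (measurableSet_box L w2),
      hc w2 (fun j => by simp only [hw2]; linarith [hw j]), smul_eq_mul]
    simp only [hw2]
    rw [show (∏ j, 2 * (2 * w j)) = ∏ j, (4 * w j) from
      Finset.prod_congr rfl fun j _ => by ring, Finset.prod_mul_distrib]
    ring
  linarith

/-- Horizontal indices. -/
def perIx (m r : ℕ) : Finset (Ix m r) := Finset.univ.image Sum.inl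

/-- The free indices. -/
def freeIx (m r : ℕ) : Finset (Ix m r) := Finset.univ.image Sum.inr

/-- The logarithmic average in the free directions. -/
def Lgc (K : ℕ) (x : Ed d) : ℝ :=
  (K : ℝ)⁻¹ * ∑ k ∈ Finset.Ico K (2 * K), Pb L (freeIx m r) (fun _ => (2 : ℝ) ^ k) x

/-- The cutoff. -/
def eta (S : ℝ) (K : ℕ) (x : Ed d) : ℝ := Pb L (perIx m r) (fun _ => S) x * Lgc L K x

lemma contDiff_eta (S : ℝ) (K : ℕ) : ContDiff ℝ 1 (eta L S K) :=
  (contDiff_Pb L _ _).mul (contDiff_const.mul (ContDiff.sum fun _ _ => contDiff_Pb L _ _))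

lemma Lgc_mem {K : ℕ} (hK : 1 ≤ K) (x : Ed d) : |Lgc L K x| ≤ 1 := by
  have hKpos : (0 : ℝ) < K := by exact_mod_cast hK
  rw [Lgc, abs_mul, abs_of_pos (inv_pos.2 hKpos), inv_mul_le_iff₀ hKpos, mul_one]
  refine le_trans (Finset.abs_sum_le_sum_abs _ _) ?_
  refine le_trans (Finset.sum_le_sum fun k _ => abs_Pb_le_one L (freeIx m r) _ x) ?_
  simp [Nat.two_mul]

lemma eta_one {S : ℝ} (hS : 0 < S) {K : ℕ} (hK : 1 ≤ K) {x : Ed d} (hp : ∀ i, |L x (Sum.inl i)| ≤ S)
    (hf : ∀ i, |L x (Sum.inr i)| ≤ 2 ^ K) : eta L S K x = 1 := by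
  have h1 : Pb L (perIx m r) (fun _ => S) x = 1 :=
    Pb_one L (fun _ _ => by linarith) fun j hj => by
      obtain ⟨i, _, rfl⟩ := Finset.mem_image.1 hj
      exact hp i
  have h2 : ∀ k ∈ Finset.Ico K (2 * K), Pb L (freeIx m r) (fun _ => (2 : ℝ) ^ k) x = 1 := by
    intro k hk
    refine Pb_one L (fun _ _ => by positivity) fun j hj => ?_
    obtain ⟨i, _, rfl⟩ := Finset.mem_image.1 hj
    exact le_trans (hf i) (pow_le_pow_right₀ (by norm_num) (Finset.mem_Ico.1 hk).1)
  have hKne : (K : ℝ) ≠ 0 := by exact_mod_cast (Nat.one_le_iff_ne_zero.1 hK)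
  rw [eta, Lgc, h1, Finset.sum_congr rfl h2]
  simp [Nat.two_mul, hKne]

/-- The box containing the support of the cutoff. -/
def bigW (m r : ℕ) (S : ℝ) (K : ℕ) : Ix m r → ℝ := Sum.elim (fun _ => 2 * S) (fun _ => 4 ^ K)

lemma eta_zero {S : ℝ} (hS : 0 < S) {K : ℕ} (hK : 1 ≤ K) {x : Ed d} (hx : x ∉ box L (bigW m r S K)) : eta L S K x = 0 := by
  simp only [box, Set.mem_setOf_eq, not_forall, not_le] at hx
  obtain ⟨j, hj⟩ := hx
  rcases j with i | i
  · rw [eta, Pb_zero L (s := perIx m r) (w := fun _ => S) (x := x) (fun _ _ => by linarith)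
      (j := Sum.inl i) (Finset.mem_image.2 ⟨i, by simp, rfl⟩) (by simpa [bigW] using hj.le)]
    ring
  · have h2 : ∀ k ∈ Finset.Ico K (2 * K), Pb L (freeIx m r) (fun _ => (2 : ℝ) ^ k) x = 0 := by
      intro k hk
      refine Pb_zero L (fun _ _ => by positivity) (Finset.mem_image.2 ⟨i, by simp, rfl⟩) ?_
      refine le_trans ?_ (show (4 : ℝ) ^ K ≤ _ by simpa [bigW] using hj.le)
      have : (2 : ℝ) * 2 ^ k ≤ 2 ^ (2 * K) := by
        rw [← pow_succ']
        exact pow_le_pow_right₀ (by norm_num) (Finset.mem_Ico.1 hk).2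
      rwa [pow_mul, show (2 : ℝ) ^ 2 = 4 by norm_num] at this
    rw [eta, Lgc, Finset.sum_congr rfl h2]
    simp

lemma hasCompactSupport_eta {S : ℝ} (hS : 0 < S) {K : ℕ} (hK : 1 ≤ K) : HasCompactSupport (eta L S K) :=
  HasCompactSupport.intro (isCompact_box L _) fun _ hx => eta_zero L hS hK hx

lemma freeSum_sq {f : ℕ → ℝ} {s : Finset ℕ}
    (h : ∀ a ∈ s, ∀ b ∈ s, f a ≠ 0 → f b ≠ 0 → a = b) :
    (∑ k ∈ s, f k) ^ 2 = ∑ k ∈ s, f k ^ 2 := by
  by_cases he : ∀ k ∈ s, f k = 0
  · rw [Finset.sum_eq_zero he, Finset.sum_eq_zero fun k hk => by rw [he k hk]; ring]; ring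
  · push Not at he
    obtain ⟨a, ha, hne⟩ := he
    have hz : ∀ b ∈ s, b ≠ a → f b = 0 := fun b hb hba => by
      by_contra hc
      exact hba (h b hb a ha hc hne)
    rw [Finset.sum_eq_single_of_mem a ha hz,
      Finset.sum_eq_single_of_mem a ha fun b hb hba => by rw [hz b hb hba]; ring]

/-- Quadratic growth of the Dirichlet energy in the free directions, linear in the cells, for
long boxes. -/
def Growth (u : Ed d → ℝ) : Prop :=
  ∃ C, 0 ≤ C ∧ ∀ R : ℝ, 1 ≤ R → ∀ᶠ N : ℕ in atTop,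
    ∫ x, (box L (Sum.elim (fun _ => 4 * (N : ℝ)) fun _ => R)).indicator (G u u) x
      ≤ C * ((N : ℝ) ^ m * R ^ 2)

/-- With two free directions the growth is automatic. -/
lemma growth_two (L : Ed d ≃L[ℝ] (Ix m 2 → ℝ)) {u : Ed d → ℝ} (hu : ContDiff ℝ 2 u)
    (hb : ∀ x, |u x| ≤ 1) (heq : ∀ x, Laplacian.laplacian u x = u x ^ 3 - u x) : Growth L u := by
  obtain ⟨C, hC0, hC⟩ := energy_bound L hu hb heq
  refine ⟨C * 4 ^ m, by positivity, fun R hR => ?_⟩
  filter_upwards [eventually_ge_atTop 1] with N hN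
  have hN' : (1 : ℝ) ≤ N := by exact_mod_cast hN
  refine (hC _ fun j => ?_).trans (le_of_eq ?_)
  · rcases j with a | a <;> simp <;> linarith
  · simp [Fintype.prod_sum_type, mul_pow]; ring

/-- The weighted energy of the cutoff is `o(N^m)`. -/
lemma cutoff_energy {u : Ed d → ℝ} (hu : ContDiff ℝ 2 u) (hgr : Growth L u) :
    ∃ C, 0 ≤ C ∧ ∀ K : ℕ, 1 ≤ K → ∀ᶠ N : ℕ in atTop,
      ∫ x, G u u x * G (eta L (2 * (N : ℝ)) K) (eta L (2 * (N : ℝ)) K) x ≤ C * (N : ℝ) ^ m / K := by
  obtain ⟨M, hM0, hM⟩ := exists_deriv_bump_bound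
  obtain ⟨Λ, hΛ0, hΛ⟩ := exists_Lambda L
  obtain ⟨Ce, hCe0, hCe⟩ := hgr
  set D : ℝ := (d : ℝ) * 2 * (((m : ℝ) * (M * Λ)) ^ 2 + ((r : ℝ) * (M * Λ)) ^ 2) with hD
  have hD0 : 0 ≤ D := by positivity
  refine ⟨5 * D * Ce, by positivity, fun K hK => ?_⟩
  have hK1 : (1 : ℝ) ≤ K := by exact_mod_cast hK
  have hKpos : (0 : ℝ) < K := by linarith
  filter_upwards [eventually_ge_atTop (4 ^ K * K), hCe _ (one_le_pow₀ (by norm_num) :
      (1 : ℝ) ≤ 4 ^ K), (Finset.eventually_all (Finset.Ico K (2 * K))).2 fun k _ =>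
      hCe _ (one_le_pow₀ (by norm_num) : (1 : ℝ) ≤ 2 ^ (k + 1))] with N hN hbig hsmall
  set S : ℝ := 2 * (N : ℝ) with hSdef
  have hN' : (4 : ℝ) ^ K * K ≤ N := by exact_mod_cast hN
  have hS : 0 < S := by
    have : (0 : ℝ) < 4 ^ K * K := by positivity
    linarith
  have e4N : 2 * S = 4 * (N : ℝ) := by rw [hSdef]; ring
  set W : ℕ → Ix m r → ℝ :=
    fun k => Sum.elim (fun _ => 2 * S) (fun _ => (2 : ℝ) ^ (k + 1)) with hW
  have hpt : ∀ x, G (eta L S K) (eta L S K) x ≤
      D * ((box L (bigW m r S K)).indicator (fun _ => (S ^ 2)⁻¹) x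
        + ((K : ℝ) ^ 2)⁻¹ * ∑ k ∈ Finset.Ico K (2 * K),
          (box L (W k)).indicator (fun _ => ((4 : ℝ) ^ k)⁻¹) x) := by
    intro x
    by_cases hx : x ∈ box L (bigW m r S K)
    swap
    · rw [G_zero_off_left fun h => hx (tsupport_subset_box L (fun y hy => eta_zero L hS hK hy) h)]
      refine mul_nonneg hD0 (add_nonneg (Set.indicator_nonneg (fun _ _ => by positivity) _) ?_)
      exact mul_nonneg (by positivity)
        (Finset.sum_nonneg fun k _ => Set.indicator_nonneg (fun _ _ => by positivity) _)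
    rw [Set.indicator_of_mem hx]
    have hper : ∀ i, |pd (Pb L (perIx m r) (fun _ => S)) i x| ≤ (m : ℝ) * (M * Λ) / S := by
      intro i
      refine le_trans (abs_pd_Pb L hM hΛ (fun _ _ => by linarith) i x) ?_
      have hcard : (perIx m r).card = m := by
        rw [perIx, Finset.card_image_of_injective _ Sum.inl_injective]; simp
      rw [Finset.sum_const, hcard, nsmul_eq_mul]
      exact le_of_eq (by ring)
    have hone : ∀ i k, pd (Pb L (freeIx m r) (fun _ => (2 : ℝ) ^ k)) i x ^ 2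
        ≤ ((r : ℝ) * (M * Λ)) ^ 2 * (box L (W k)).indicator (fun _ => ((4 : ℝ) ^ k)⁻¹) x := by
      intro i k
      by_cases h0 : pd (Pb L (freeIx m r) (fun _ => (2 : ℝ) ^ k)) i x = 0
      · rw [h0]
        simpa using mul_nonneg (sq_nonneg ((r : ℝ) * (M * Λ)))
          (Set.indicator_nonneg (s := box L (W k))
            (f := fun _ => ((4 : ℝ) ^ k)⁻¹) (fun _ _ => by positivity) x)
      · have hin : x ∈ box L (W k) := by
          intro j
          rcases j with a | a
          · simpa [hW, bigW] using hx (Sum.inl a)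
          · have := (pd_Pb_ne L (fun _ _ => by positivity) h0).1 (Sum.inr a)
              (Finset.mem_image.2 ⟨a, by simp, rfl⟩)
            simp only [hW, Sum.elim_inr, pow_succ]; linarith
        rw [Set.indicator_of_mem hin]
        have hle := abs_pd_Pb L hM hΛ (s := freeIx m r) (w := fun _ => (2 : ℝ) ^ k)
          (fun _ _ => by positivity) i x
        have hcard : (freeIx m r).card = r := by
          rw [freeIx, Finset.card_image_of_injective _ Sum.inr_injective]; simp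
        rw [Finset.sum_const, hcard, nsmul_eq_mul] at hle
        rw [← sq_abs]
        refine le_trans (pow_le_pow_left₀ (abs_nonneg _) hle 2) (le_of_eq ?_)
        rw [show (4 : ℝ) ^ k = (2 ^ k) ^ 2 by rw [← pow_mul, mul_comm, pow_mul]; norm_num]
        push_cast
        field_simp
    have hq : ∀ i, pd (Lgc L K) i x ^ 2 ≤ ((K : ℝ) ^ 2)⁻¹ * (((r : ℝ) * (M * Λ)) ^ 2 *
        ∑ k ∈ Finset.Ico K (2 * K), (box L (W k)).indicator (fun _ => ((4 : ℝ) ^ k)⁻¹) x) := by
      intro i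
      have hpd : pd (Lgc L K) i x = (K : ℝ)⁻¹ *
          ∑ k ∈ Finset.Ico K (2 * K), pd (Pb L (freeIx m r) (fun _ => (2 : ℝ) ^ k)) i x := by
        have hdf : ∀ k ∈ Finset.Ico K (2 * K),
            DifferentiableAt ℝ (Pb L (freeIx m r) (fun _ => (2 : ℝ) ^ k)) x :=
          fun k _ => (contDiff_Pb L _ _).differentiable (by norm_num) x
        simp only [pd, show Lgc L K = fun y => (K : ℝ)⁻¹ * ∑ k ∈ Finset.Ico K (2 * K),
          Pb L (freeIx m r) (fun _ => (2 : ℝ) ^ k) y from rfl]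
        rw [fderiv_const_mul (DifferentiableAt.fun_sum hdf), fderiv_fun_sum hdf]
        simp
      have huniq : ∀ a ∈ Finset.Ico K (2 * K), ∀ b ∈ Finset.Ico K (2 * K),
          pd (Pb L (freeIx m r) (fun _ => (2 : ℝ) ^ a)) i x ≠ 0 →
          pd (Pb L (freeIx m r) (fun _ => (2 : ℝ) ^ b)) i x ≠ 0 → a = b := by
        intro a _ b _ ha hb
        obtain ⟨ha1, ja, hja, ha2⟩ := pd_Pb_ne L (fun _ _ => by positivity) ha
        obtain ⟨hb1, jb, hjb, hb2⟩ := pd_Pb_ne L (fun _ _ => by positivity) hb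
        have q1 := ha1 jb hjb
        have q2 := hb1 ja hja
        have r1 : (2 : ℝ) ^ b < 2 ^ (a + 1) := by rw [pow_succ]; linarith
        have r2 : (2 : ℝ) ^ a < 2 ^ (b + 1) := by rw [pow_succ]; linarith
        have s1 := (pow_lt_pow_iff_right₀ (by norm_num : (1 : ℝ) < 2)).1 r1
        have s2 := (pow_lt_pow_iff_right₀ (by norm_num : (1 : ℝ) < 2)).1 r2
        omega
      rw [hpd, mul_pow, freeSum_sq huniq, inv_pow, Finset.mul_sum, Finset.mul_sum, Finset.mul_sum]
      refine Finset.sum_le_sum fun k _ => ?_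
      exact mul_le_mul_of_nonneg_left (hone i k) (by positivity)
    have hterm : ∀ i, pd (eta L S K) i x ^ 2 ≤ 2 * (((m : ℝ) * (M * Λ)) ^ 2 + ((r : ℝ) * (M * Λ)) ^ 2) *
        ((S ^ 2)⁻¹ + ((K : ℝ) ^ 2)⁻¹ * ∑ k ∈ Finset.Ico K (2 * K),
          (box L (W k)).indicator (fun _ => ((4 : ℝ) ^ k)⁻¹) x) := by
      intro i
      set Sk := ∑ k ∈ Finset.Ico K (2 * K),
          (box L (W k)).indicator (fun _ => ((4 : ℝ) ^ k)⁻¹) x with hSk
      have hS0 : 0 ≤ Sk :=
        Finset.sum_nonneg fun k _ => Set.indicator_nonneg (fun _ _ => by positivity) _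
      have e : pd (eta L S K) i x = Pb L (perIx m r) (fun _ => S) x * pd (Lgc L K) i x
          + Lgc L K x * pd (Pb L (perIx m r) (fun _ => S)) i x :=
        pd_mul ((contDiff_Pb L _ _).differentiable (by norm_num) x)
          ((contDiff_const.mul (ContDiff.sum fun _ _ => contDiff_Pb L _ _)).differentiable
            (by norm_num : (1 : WithTop ℕ∞) ≠ 0) x) i
      have a1 : (Pb L (perIx m r) (fun _ => S) x * pd (Lgc L K) i x) ^ 2
          ≤ ((r : ℝ) * (M * Λ)) ^ 2 * (((K : ℝ) ^ 2)⁻¹ * Sk) := by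
        rw [mul_pow]
        have h1 : Pb L (perIx m r) (fun _ => S) x ^ 2 ≤ 1 := by
          nlinarith [Pb_nonneg L (perIx m r) (fun _ => S) x,
            Pb_le_one L (perIx m r) (fun _ => S) x]
        calc _ ≤ 1 * pd (Lgc L K) i x ^ 2 := mul_le_mul_of_nonneg_right h1 (sq_nonneg _)
          _ = pd (Lgc L K) i x ^ 2 := one_mul _
          _ ≤ _ := hq i
          _ = _ := by ring
      have a2 : (Lgc L K x * pd (Pb L (perIx m r) (fun _ => S)) i x) ^ 2
          ≤ ((m : ℝ) * (M * Λ)) ^ 2 * (S ^ 2)⁻¹ := by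
        rw [mul_pow]
        have h1 : Lgc L K x ^ 2 ≤ 1 := by
          have := Lgc_mem L hK x
          nlinarith [sq_abs (Lgc L K x), abs_nonneg (Lgc L K x)]
        calc _ ≤ 1 * pd (Pb L (perIx m r) (fun _ => S)) i x ^ 2 :=
              mul_le_mul_of_nonneg_right h1 (sq_nonneg _)
          _ ≤ ((m : ℝ) * (M * Λ) / S) ^ 2 := by
              rw [one_mul, ← sq_abs]; exact pow_le_pow_left₀ (abs_nonneg _) (hper i) 2
          _ = _ := by rw [div_pow, div_eq_mul_inv]
      have p1 : 0 ≤ ((m : ℝ) * (M * Λ)) ^ 2 * (((K : ℝ) ^ 2)⁻¹ * Sk) := by positivity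
      have p2 : 0 ≤ ((r : ℝ) * (M * Λ)) ^ 2 * (S ^ 2)⁻¹ := by positivity
      rw [e]
      nlinarith [sq_nonneg (Pb L (perIx m r) (fun _ => S) x * pd (Lgc L K) i x
        - Lgc L K x * pd (Pb L (perIx m r) (fun _ => S)) i x)]
    calc G (eta L S K) (eta L S K) x = ∑ i, pd (eta L S K) i x ^ 2 :=
          Finset.sum_congr rfl fun i _ => (sq _).symm
      _ ≤ _ := Finset.sum_le_sum fun i _ => hterm i
      _ = _ := by
          rw [Finset.sum_const, Finset.card_univ, Fintype.card_fin, nsmul_eq_mul, hD]; ring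
  have hcG := continuous_G hu (by norm_num) hu (by norm_num)
  have hind : ∀ w : Ix m r → ℝ, Integrable ((box L w).indicator (G u u)) := fun w =>
    (hcG.continuousOn.integrableOn_compact (isCompact_box L w)).integrable_indicator
      (measurableSet_box L w)
  have hlhs : Integrable (fun x => G u u x * G (eta L S K) (eta L S K) x) :=
    integrable_off (hcG.mul (continuous_G (contDiff_eta L S K) (by norm_num) (contDiff_eta L S K)
      (by norm_num))) (hasCompactSupport_eta L hS hK) fun x hx => by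
        show G u u x * _ = 0
        rw [G_zero_off_left hx]; ring
  set R : Ed d → ℝ := fun x => D * ((S ^ 2)⁻¹ * (box L (bigW m r S K)).indicator (G u u) x
      + ((K : ℝ) ^ 2)⁻¹ * ∑ k ∈ Finset.Ico K (2 * K),
          ((4 : ℝ) ^ k)⁻¹ * (box L (W k)).indicator (G u u) x) with hR
  have hR1 : Integrable R :=
    (((hind _).const_mul _).add
      ((integrable_finsetSum _ fun k _ => (hind (W k)).const_mul _).const_mul _)).const_mul _
  have hle : ∀ x, G u u x * G (eta L S K) (eta L S K) x ≤ R x := by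
    intro x
    refine le_trans (mul_le_mul_of_nonneg_left (hpt x) (G_self_nonneg u x)) (le_of_eq ?_)
    have hi : ∀ (w : Ix m r → ℝ) (r : ℝ), G u u x * (box L w).indicator (fun _ => r) x
        = r * (box L w).indicator (G u u) x := by
      intro w r
      by_cases h : x ∈ box L w <;> simp [h, mul_comm]
    simp only [hR]
    rw [mul_left_comm, mul_add, hi, mul_left_comm (G u u x), Finset.mul_sum]
    simp only [hi]
  have hI := integral_mono hlhs hR1 hle
  have hval : ∫ x, R x ≤ D * ((S ^ 2)⁻¹ * (Ce * ((N : ℝ) ^ m * ((4 : ℝ) ^ K) ^ 2))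
      + ((K : ℝ) ^ 2)⁻¹ * ∑ _k ∈ Finset.Ico K (2 * K), Ce * ((N : ℝ) ^ m * 4)) := by
    simp only [hR]
    rw [integral_const_mul, integral_add ((hind _).const_mul _)
      ((integrable_finsetSum _ fun k _ => (hind (W k)).const_mul _).const_mul _),
      integral_const_mul, integral_const_mul,
      integral_finsetSum _ fun k _ => (hind (W k)).const_mul _]
    refine mul_le_mul_of_nonneg_left (add_le_add ?_ ?_) hD0
    · refine mul_le_mul_of_nonneg_left ?_ (by positivity)
      simp only [bigW, e4N]; exact hbig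
    · refine mul_le_mul_of_nonneg_left (Finset.sum_le_sum fun k hk => ?_) (by positivity)
      rw [integral_const_mul]
      simp only [hW, e4N]
      refine le_trans (mul_le_mul_of_nonneg_left (hsmall k hk) (by positivity)) (le_of_eq ?_)
      have e4 : (4 : ℝ) ^ k = 2 ^ k * 2 ^ k := by rw [← mul_pow]; norm_num
      rw [e4, pow_succ]
      field_simp
      ring
  have hfin : D * ((S ^ 2)⁻¹ * (Ce * ((N : ℝ) ^ m * ((4 : ℝ) ^ K) ^ 2))
      + ((K : ℝ) ^ 2)⁻¹ * ∑ _k ∈ Finset.Ico K (2 * K), Ce * ((N : ℝ) ^ m * 4))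
      = D * Ce * (N : ℝ) ^ m * ((S ^ 2)⁻¹ * ((4 : ℝ) ^ K) ^ 2 + 4 / K) := by
    rw [Finset.sum_const, Nat.card_Ico, show 2 * K - K = K by omega, nsmul_eq_mul]
    field_simp
  rw [hfin] at hval
  have hlast : (S ^ 2)⁻¹ * ((4 : ℝ) ^ K) ^ 2 + 4 / K ≤ 5 / K := by
    have h1 : (S ^ 2)⁻¹ * ((4 : ℝ) ^ K) ^ 2 ≤ 1 / K := by
      rw [inv_mul_le_iff₀ (pow_pos hS 2), mul_one_div, le_div_iff₀ hKpos]
      have h0 : (0 : ℝ) < 4 ^ K := by positivity
      calc ((4 : ℝ) ^ K) ^ 2 * K ≤ (4 ^ K * K) * (4 ^ K * K) := by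
            nlinarith [mul_le_mul_of_nonneg_left hK1 (mul_nonneg (mul_nonneg h0.le h0.le) hKpos.le)]
        _ ≤ S * S := mul_le_mul (by linarith) (by linarith) (by positivity) hS.le
        _ = S ^ 2 := by ring
    calc _ ≤ 1 / (K : ℝ) + 4 / K := by linarith
      _ = _ := by ring
  have hpos : 0 ≤ D * Ce * (N : ℝ) ^ m := by positivity
  calc _ ≤ ∫ x, R x := hI
    _ ≤ _ := hval
    _ ≤ D * Ce * (N : ℝ) ^ m * (5 / K) := mul_le_mul_of_nonneg_left hlast hpos
    _ = _ := by ring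

end Vale.Agent.P134.Periodic
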