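/-
P134 (De Giorgi): difference quotients of solutions.
-/
import Vale.Agent.P134.Calc

open MeasureTheory Filter Topology
open scoped InnerProductSpace

noncomputable section

namespace Vale.Agent.P134.Periodic

variable {d : ℕ}

/-- Difference quotient. -/
def dq (u : Ed d → ℝ) (a : Ed d) (s : ℝ) (x : Ed d) : ℝ := (u (x + s • a) - u x) / s

/-- The coefficient in the equation of a difference quotient. -/
def cc (u : Ed d → ℝ) (a : Ed d) (s : ℝ) (x : Ed d) : ℝ :=
  u (x + s • a) ^ 2 + u (x + s • a) * u x + u x ^ 2 - 1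

/-- Directional derivative. -/
def Dd (u : Ed d → ℝ) (a : Ed d) (x : Ed d) : ℝ := fderiv ℝ u x a

lemma continuous_Dd {u : Ed d → ℝ} (hu : ContDiff ℝ 2 u) (a : Ed d) : Continuous (Dd u a) := by
  exact (hu.continuous_fderiv (by norm_num)).clm_apply continuous_const

lemma contDiff_Dd {u : Ed d → ℝ} (hu : ContDiff ℝ 2 u) (a : Ed d) : ContDiff ℝ 1 (Dd u a) := by
  exact (hu.fderiv_right (m := 1) (by norm_num)).clm_apply contDiff_const

lemma norm_bb (i : Fin d) : ‖bb i‖ = 1 := (EuclideanSpace.basisFun (Fin d) ℝ).norm_eq_one i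

lemma contDiff_dq {u : Ed d → ℝ} (hu : ContDiff ℝ 2 u) (a : Ed d) (s : ℝ) :
    ContDiff ℝ 2 (dq u a s) :=
  ((hu.comp (contDiff_id.add contDiff_const)).sub hu).div_const s

lemma continuous_cc {u : Ed d → ℝ} (hu : ContDiff ℝ 2 u) (a : Ed d) (s : ℝ) :
    Continuous (cc u a s) := by
  have := hu.continuous
  unfold cc; fun_prop

lemma lap_dq {u : Ed d → ℝ} (hu : ContDiff ℝ 2 u)
    (heq : ∀ x, Laplacian.laplacian u x = u x ^ 3 - u x) (a : Ed d) (s : ℝ) (x : Ed d) :
    Laplacian.laplacian (dq u a s) x = cc u a s x * dq u a s x := by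
  have ht : ContDiff ℝ 2 (fun y => u (y + s • a)) := hu.comp (contDiff_id.add contDiff_const)
  have h1 : Laplacian.laplacian (fun y => u (y + s • a)) x
      = Laplacian.laplacian u (x + s • a) := by
    rw [InnerProductSpace.laplacian_eq_iteratedFDeriv_orthonormalBasis _
        (EuclideanSpace.basisFun (Fin d) ℝ),
      InnerProductSpace.laplacian_eq_iteratedFDeriv_orthonormalBasis _
        (EuclideanSpace.basisFun (Fin d) ℝ)]
    simp only [iteratedFDeriv_comp_add_right]
  have e : dq u a s = s⁻¹ • ((fun y => u (y + s • a)) - u) := by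
    funext y; simp [dq, div_eq_inv_mul]
  have hts : ContDiffAt ℝ 2 ((fun y => u (y + s • a)) - u) x := (ht.sub hu).contDiffAt
  rw [e, InnerProductSpace.laplacian_smul _ hts,
    ContDiffAt.laplacian_sub ht.contDiffAt hu.contDiffAt, h1, heq, heq]
  simp only [smul_eq_mul, Pi.smul_apply, Pi.sub_apply, cc]
  ring

lemma dq_slope {u : Ed d → ℝ} (hu : ContDiff ℝ 2 u) (a : Ed d) {s : ℝ} (hs : 0 < s) (x : Ed d) :
    ∃ t ∈ Set.Ioo 0 s, dq u a s x = Dd u a (x + t • a) := by
  have hd : ∀ t : ℝ, HasDerivAt (fun t : ℝ => u (x + t • a)) (Dd u a (x + t • a)) t := by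
    intro t
    have h1 : HasDerivAt (fun t : ℝ => x + t • a) a t := by
      simpa using ((hasDerivAt_id t).smul_const a).const_add x
    exact (hu.differentiable (by norm_num) (x + t • a)).hasFDerivAt.comp_hasDerivAt t h1
  obtain ⟨t, ht, he⟩ := exists_hasDerivAt_eq_slope (fun t : ℝ => u (x + t • a))
    (fun t => Dd u a (x + t • a)) hs
    (continuous_iff_continuousAt.2 fun t => (hd t).continuousAt).continuousOn (fun t _ => hd t)
  exact ⟨t, ht, by rw [he]; simp [dq]⟩

lemma tendsto_dq {u : Ed d → ℝ} (hu : ContDiff ℝ 2 u) (a : Ed d) (x : Ed d) {s : ℕ → ℝ}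
    (hs : Tendsto s atTop (𝓝 0)) (hpos : ∀ n, 0 < s n) :
    Tendsto (fun n => dq u a (s n) x) atTop (𝓝 (Dd u a x)) := by
  choose t ht he using fun n => dq_slope hu a (hpos n) x
  simp only [he]
  have htz : Tendsto t atTop (𝓝 0) :=
    squeeze_zero (fun n => (ht n).1.le) (fun n => (ht n).2.le) hs
  have := ((continuous_Dd hu a).comp
    (continuous_const.add (continuous_id.smul continuous_const))
    : Continuous fun t : ℝ => Dd u a (x + t • a))
  have h2 := (this.tendsto 0).comp htz
  simp only [Function.comp_def, zero_smul, add_zero] at h2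
  exact h2

lemma periodic_dq {u : Ed d → ℝ} {T : Ed d} (hT : ∀ x, u (x + T) = u x) (a : Ed d) (s : ℝ)
    (x : Ed d) : dq u a s (x + T) = dq u a s x := by
  simp only [dq, hT]
  rw [add_right_comm, hT]

lemma periodic_pd {f : Ed d → ℝ} {T : Ed d} (hT : ∀ x, f (x + T) = f x) (i : Fin d) (x : Ed d) :
    pd f i (x + T) = pd f i x := by
  unfold pd
  rw [← fderiv_comp_add_right T, show (fun y => f (y + T)) = f from funext hT]

lemma lim_integral {g : ℕ → Ed d → ℝ} {gl : Ed d → ℝ} {K : Set (Ed d)} (hK : IsCompact K)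
    {C : ℝ} (hc : ∀ n, Continuous (g n)) (h0 : ∀ n, ∀ x ∉ K, g n x = 0)
    (hb : ∀ n, ∀ x ∈ K, |g n x| ≤ C) (hl : ∀ x, Tendsto (fun n => g n x) atTop (𝓝 (gl x))) :
    Tendsto (fun n => ∫ x, g n x) atTop (𝓝 (∫ x, gl x)) := by
  refine tendsto_integral_of_dominated_convergence (K.indicator fun _ => C)
    (fun n => (hc n).aestronglyMeasurable) ?_ (fun n => Eventually.of_forall fun x => ?_)
    (Eventually.of_forall hl)
  · exact ((continuous_const : Continuous fun _ : Ed d => C).continuousOn.integrableOn_compact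
      hK).integrable_indicator hK.isClosed.measurableSet
  · by_cases hx : x ∈ K
    · rw [Set.indicator_of_mem hx, Real.norm_eq_abs]; exact hb n x hx
    · rw [Set.indicator_of_notMem hx, h0 n x hx]; simp

end Vale.Agent.P134.Periodic
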