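/-
P134 (De Giorgi): coordinates adapted to periods.
-/
import Vale.Agent.P134.Cutoff
import Vale.Agent.P134.Quot

open MeasureTheory Filter Topology
open scoped InnerProductSpace

noncomputable section

namespace Vale.Agent.P134.Periodic

variable {d m r : ℕ}

/-- A basis extending independent periods. -/
lemma exists_basis_ext {τ : Fin m → Ed d} (hτ : LinearIndependent ℝ τ) (hd : d = m + r) :
    ∃ B0 : Module.Basis (Ix m r) ℝ (Ed d), ∀ i, B0 (Sum.inl i) = τ i := by
  classical
  have hfin : Finite (Fin m ⊕ Module.Basis.sumExtendIndex hτ) :=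
    Module.Finite.finite_basis (Module.Basis.sumExtend hτ)
  have : Finite (Module.Basis.sumExtendIndex hτ) :=
    Finite.of_injective (Sum.inr : _ → Fin m ⊕ Module.Basis.sumExtendIndex hτ)
      Sum.inr_injective
  have : Fintype (Module.Basis.sumExtendIndex hτ) := Fintype.ofFinite _
  have hc : Fintype.card (Module.Basis.sumExtendIndex hτ) = r := by
    have h := Module.finrank_eq_nat_card_basis (Module.Basis.sumExtend hτ)
    rw [Nat.card_sum, Nat.card_fin, Nat.card_eq_fintype_card, finrank_euclideanSpace_fin] at h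
    omega
  refine ⟨(Module.Basis.sumExtend hτ).reindex
    (Equiv.sumCongr (Equiv.refl _) (Fintype.equivFinOfCardEq hc)), fun i => ?_⟩
  simp [Module.Basis.reindex_apply, Module.Basis.sumExtend]
  rfl

/-- A function whose gradient is everywhere parallel to `ω` depends on `⟪ω, x⟫` only. -/
lemma eq_of_gradient {u q : Ed d → ℝ} {ω : Ed d} (hu : Differentiable ℝ u) (hω : ‖ω‖ = 1)
    (hgrad : ∀ x y, fderiv ℝ u x y = q x * ⟪ω, y⟫_ℝ) (x : Ed d) :
    u x = u (⟪ω, x⟫_ℝ • ω) := by
  set p := ⟪ω, x⟫_ℝ • ω with hp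
  have horth : ⟪ω, x - p⟫_ℝ = 0 := by
    have he2 : ⟪ω, ω⟫_ℝ = 1 := by rw [real_inner_self_eq_norm_sq, hω]; norm_num
    rw [hp, inner_sub_right, real_inner_smul_right, he2]; ring
  have hd : ∀ t : ℝ, HasDerivAt (fun t : ℝ => u (p + t • (x - p))) 0 t := by
    intro t
    have h1 : HasDerivAt (fun t : ℝ => p + t • (x - p)) (x - p) t := by
      simpa using ((hasDerivAt_id t).smul_const (x - p)).const_add p
    have h2 := (hu (p + t • (x - p))).hasFDerivAt.comp_hasDerivAt t h1
    rw [hgrad, horth, mul_zero] at h2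
    exact h2
  have := is_const_of_deriv_eq_zero (fun t => (hd t).differentiableAt) (fun t => (hd t).deriv) 1 0
  simpa using this

end Vale.Agent.P134.Periodic
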